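import Vale.Agent.P269.Mono.DgIntA
import Vale.Agent.P269.Br.CrvA
import Vale.Agent.P269.Pc.Vir

/-!
# The torus acts freely and properly on multicones
-/

namespace Vale.Agent.P269L.Fr

open P291Z Set Function Topology Filter MvPolynomial P269 P269.Holo P269.Mono P269.Cv

/-- Diagonal actions with an invariant monomial ratio are free and proper. -/
theorem fp_of {ι W : Type} [Fintype ι] [NormedAddCommGroup W] [NormedSpace ℂ W]
    [FiniteDimensional ℂ W] {act : (ι → ℂ) → W → W} {S : Set W} (h : IsAct act S)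
    (hl : IsLocallyClosed S) (hc : ∀ x ∈ S, ∀ i, ∃ l : W → ℂ, Continuous l ∧ l x ≠ 0 ∧
      ∀ t y, l (act t y) = t i * l y) : FP act S := by
  haveI := FiniteDimensional.proper ℂ W
  refine { h with proper := ?_, lc := hl.locallyCompactSpace, free := fun x g e => ?_ }
  · refine properSMul_units fun x y => ?_
    choose l h1 h2 h3 using hc _ x.val_mem
    have h4 : ∀ i, Continuous fun p : Sp act S => l i p.val := fun i => (h1 i).comp Sp.continuous_val
    have h5 : ContinuousAt (fun (p : Sp act S × Sp act S) i => l i p.2.val / l i p.1.val) (x, y) :=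
      continuousAt_pi.2 fun i => ((h4 i).comp continuous_snd).continuousAt.div
        ((h4 i).comp continuous_fst).continuousAt (h2 i)
    have h6 : ∀ᶠ p in 𝓝 (x, y), ∀ i, l i p.1.val ≠ 0 := eventually_all.2 fun i =>
      ((h4 i).comp continuous_fst).continuousAt.eventually_ne (h2 i)
    refine ⟨_, ((h5.norm.eventually_le_const (lt_add_one _)).and h6).mono fun p hp g e =>
      le_of_eq_of_le (congrArg norm (funext fun i => ?_)) hp.1⟩
    rw [← e]
    exact ((congrArg (· / _) (h3 i _ _)).trans (mul_div_cancel_right₀ _ (hp.2 i))).symm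
  · refine Units.ext (funext fun i => ?_)
    obtain ⟨l, -, h2, h3⟩ := hc _ x.val_mem i
    exact mul_right_cancel₀ h2 ((h3 _ _).symm.trans ((congrArg l (congrArg Sp.val e)).trans
      (one_mul _).symm))

theorem fp_curve {ι : Type} [Fintype ι] {M : ι → ℕ} {o : ι} {g : ℤ} {m : ι → ℤ} {C : Set (V M)}
    (h : IsCurve o g m C) : FP (fun (t : ι → ℂ) (c : V M) => t • c) C := by
  refine fp_of ⟨fun x _ => one_smul _ x, fun a b _ _ x _ => mul_smul a b x,
    fun a ha x hx => h.cone a (Crv.isUnit_iff.1 ha) x hx,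
    fun _ _ _ _ => Dict.an_smul analyticAt_fst analyticAt_snd⟩
    ⟨{c | ∀ i, c i ≠ 0}, closure C, ?_, isClosed_closure,
      Subset.antisymm (fun c hc => ⟨h.ne_zero c hc, subset_closure hc⟩)
        fun c hc => h.closed c hc.2 hc.1⟩ fun x hx i => ?_
  · rw [ofPred_forall]
    exact isOpen_iInter_of_finite fun i => isOpen_ne_fun (continuous_apply i) continuous_const
  · obtain ⟨j, hj⟩ := Function.ne_iff.1 (h.ne_zero x hx i)
    exact ⟨fun c => c i j, (continuous_apply j).comp (continuous_apply i), hj, fun _ _ => rfl⟩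

theorem fp_cone {J K : Type} [Fintype J] {F : K → MvPolynomial J ℂ} {d : K → ℕ}
    (h : ∀ k, (F k).IsHomogeneous (d k)) : FP Pc.c5 (Pc.c2 F) := by
  refine fp_of ⟨fun x _ => funext fun j => one_mul _, fun a b _ _ x _ => funext fun j => mul_assoc ..,
    fun a ha x ⟨⟨j, hj⟩, hx⟩ => ⟨⟨j, mul_ne_zero (Crv.isUnit_iff.1 ha ()) hj⟩, fun k => ?_⟩,
    fun _ _ _ _ => AnalyticAt.pi fun j => ?_⟩
    ⟨{x | ∃ j, x j ≠ 0}, {x | ∀ k, eval x (F k) = 0}, ?_, ?_, rfl⟩ fun x ⟨⟨j, hj⟩, _⟩ _ =>
      ⟨fun y => y j, continuous_apply j, hj, fun _ _ => rfl⟩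
  · rw [← mul_zero (a () ^ d k), ← hx k, eval_eq', eval_eq', Finset.mul_sum]
    refine Finset.sum_congr rfl fun α hα => ?_
    have := h k (mem_support_iff.1 hα)
    rw [Finsupp.weight_apply, Finsupp.sum_fintype _ _ (by simp)] at this
    simp only [Pc.c5, mul_pow, Finset.prod_mul_distrib, Finset.prod_pow_eq_pow_sum, ← this,
      Pi.one_apply, smul_eq_mul, mul_one]
    ring
  · exact (((ContinuousLinearMap.proj (R := ℂ) (φ := fun _ : Unit => ℂ) ()).analyticAt _).comp
      analyticAt_fst).mul (((ContinuousLinearMap.proj (R := ℂ) (φ := fun _ : J => ℂ) j).analyticAt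
        _).comp analyticAt_snd)
  · rw [ofPred_exists]
    exact isOpen_iUnion fun j => isOpen_ne_fun (continuous_apply j) continuous_const
  · rw [ofPred_forall]
    exact isClosed_iInter fun k => isClosed_eq (continuous_eval _) continuous_const

end Vale.Agent.P269L.Fr
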