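import Vale.Agent.P269L.Fr.Ch
import Vale.Agent.P269L.Fr.Free
import Vale.Agent.P269L.T.Real
import Vale.Agent.P269.Pub.T7

/-!
# The statement for predicates that agree with the landed ones on good data
-/

namespace Vale.Agent.P269L.Fr

open P291Z Set Function Topology Filter MvPolynomial P269 P269.Pc P269.Tf P269.Ch P269.Mono

/-- `Vr` is the virtual class on every good chart. -/
def Cn (Vr : VT) : Prop := ∀ (A W P : Type) [NormedRing A] [NormedAlgebra ℂ A]
  [NormedAddCommGroup W] [NormedSpace ℂ W] [AddCommGroup P] [Module ℂ P] [TopologicalSpace P]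
  [FiniteDimensional ℂ A] [FiniteDimensional ℂ W] [IsTopologicalAddGroup P] [ContinuousSMul ℂ P]
  [T2Space P] (D : KD A W P) (act : A → W → W)
  (Z S O : Set W) (v r d : ℕ), T.Kur D act Z S O v r d → ∀ b,
    Vr A W P act D.ρ S Z (D.P₀ : Set P) (fun x => (D.van x : Set P)) (fun x => (D.obs x : Set P))
      D.s b ↔ ∃ γ, D.Stm act Z S γ ∧ Tf.fn γ = b

/-- `Fd` is the fundamental class for free proper actions. -/
def Fn (Fd : FT) : Prop := ∀ (A W : Type) [NormedRing A] [NormedAlgebra ℂ A]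
  [NormedAddCommGroup W] [NormedSpace ℂ W] [FiniteDimensional ℂ A] [FiniteDimensional ℂ W]
  (act : A → W → W) (S : Set W), FP act S → ∀ b, Fd A W act S b ↔ Pub.IsFund act S b

variable {Vr : VT} {Fd : FT}

theorem Cn.br (h : Cn Vr) {R J K : Type} [Fintype R] [Fintype J] [Fintype K] [DecidableEq R]
    {T : Tgt R J K} {χ : K → R → ℤ} {k : ℕ} (hT : (T.fam χ).Tg) (hk : (T.fam χ).Big k) :
    Br Vr T := fun g n d =>
  (P269L.T.isKur_chart' hT hk g d n).mono fun _ a => a.mono fun _ ⟨O, v, r, m, c⟩ b => by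
    have := h _ _ _ _ _ _ _ O v r m c b
    rw [funext P269L.T.coe_van, funext P269L.T.coe_obs] at this
    exact this.trans (exists_congr fun _ => and_congr_left' P269L.T.isVir_iff.symm)

theorem Fn.brC (h : Fn Fd) : BrC Fd := fun _ _ _ _ _ a =>
  funext fun b => propext (h _ _ _ _ (fp_curve a) b)

/-- **The two statements coincide for smooth complete intersections.** -/
theorem f102_ci (hV : Cn Vr) (hf : Fn Fd) {N r : ℕ} {d : Fin r → ℕ}
    {F : Fin r → MvPolynomial (Fin (N + 1)) ℂ} (hF : ∀ k, (F k).IsHomogeneous (d k))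
    (hs : ∀ x ∈ c2 F, LinearIndependent ℂ fun k j => eval x (pderiv j (F k)))
    (hc : Nonempty (c6 F)) : f102 Vr Fd F = c102 F := by
  obtain ⟨⟨x, hx⟩, -⟩ := Quot.exists_rep (Classical.arbitrary (c6 F))
  have e : c2 F = (ci F).cone := cone_eq
  rw [e] at hs hx
  exact f102_eq F (hV.br (χ := fun k _ => d k) (smCI hF hs hx).tg (ciF_big le_rfl)) hf.brC
    (funext fun b => propext (hf _ _ _ _ (fp_cone hF) b))

end Vale.Agent.P269L.Fr
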