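import Vale.Agent.P269L.Fr.Defs

/-!
# Two virtual class predicates that agree on the charts give the same statement
-/

set_option linter.unusedSectionVars false

namespace Vale.Agent.P269L.Fr

open P291Z Set Function Topology Filter MvPolynomial P269 P269.Pc P269.Tf

theorem f49_congr {Vr Vr' : VT} {Fd Fd' : FT} {A W P E A' Y : Type} [NormedRing A] [NormedAlgebra ℂ A]
    [NormedAddCommGroup W] [NormedSpace ℂ W] [NormedAddCommGroup E] [NormedSpace ℂ E]
    [AddCommGroup P] [Module ℂ P] [TopologicalSpace P] [NormedRing A'] [NormedAlgebra ℂ A']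
    [TopologicalSpace Y] {n : ℕ} {act : A → W → W} {ρ : A → P → P} {S S' sol sol' : Set W}
    {pol pol' : Set P} {van van' obs obs' : W → Set P} {σ : W → P} {act' : A' → E → E}
    {C C' : W → Set E} {V : W → E → Y → Prop} {p : W → Fin n → E} {ρ' : Fin n → A → E → E}
    {dir : E → Set E} (h1 : S = S') (h2 : sol = sol') (h3 : pol = pol') (h4 : van = van')
    (h5 : obs = obs') (h6 : C = C') (h7 : ∀ x ∈ sol', Fd A' E act' (C' x) = Fd' A' E act' (C' x))
    (h : Vr A W P act ρ S' sol' pol' van' obs' σ = Vr' A W P act ρ S' sol' pol' van' obs' σ) :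
    f49 Vr Fd act ρ S sol pol van obs σ act' C V p ρ' dir =
      f49 Vr' Fd' act ρ S sol pol van obs σ act' C V p ρ' dir := by
  subst h1 h2 h3 h4 h5 h6
  have h8 : ∀ y, Fd A' E act' (C (c37 act sol y)) = Fd' A' E act' (C (c37 act sol y)) :=
    fun y => h7 _ (Quot.out y).2
  unfold f49
  simp only [h, h8]

variable {ι R J K : Type} [Fintype ι] [DecidableEq ι] [Fintype R] [Fintype J] [Fintype K]

/-- The predicate `Vr` on the chart `ch`. -/
def vch (Vr : VT) (ch : Ch ι J) (n : ℕ) (T : Tgt R J K) (e : K → ι → ℕ) :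
    c10 (ch.Mod (Fin n) T) → Prop :=
  Vr (ch.A (Fin n)) (ch.W (Fin n)) (ch.P K) Ch.act Ch.ρ (ch.base (Fin n)) (ch.sol (Fin n) T)
    (ch.pol T e : Set (ch.P K)) (Ch.van T e) (Ch.obs T e) (Ch.sct T e)

theorem vch_v47 {ch : Ch ι J} {n : ℕ} {T : Tgt R J K} {e : K → ι → ℕ}
    {b : c10 (ch.Mod (Fin n) T)} :
    vch v47 ch n T e b ↔ ∃ v, ch.IsVir (Fin n) T e v ∧ fn v = b :=
  isVir_iff (act := Ch.act) (ρ := Ch.ρ) (P₀ := ch.pol T e)

theorem f81_congr {Vr Vr' : VT} {Fd Fd' : FT} (T : Tgt R J K) {n : ℕ} {M : ι → ℕ} {o : ι} {g : ℤ} {m : ι → ℤ}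
    {a : Option J → ι → ℕ} {h : Option J → ℕ} {k : ℕ} {w b : ι → ℕ} (e : K → ι → ℕ) {Y : Type}
    [TopologicalSpace Y] {π : T.cone → Y}
    (hf : ∀ C, IsCurve o g m C → Fd (ι → ℂ) (V M) (fun t c => t • c) C =
      Fd' (ι → ℂ) (V M) (fun t c => t • c) C)
    (hv : vch Vr (cch M o g m a h k w b) n T e = vch Vr' (cch M o g m a h k w b) n T e) :
    f81 Vr Fd n M (c82 o k w) h (fun l => c33 (a l)) (c33 b) o k c83 g m b e T.F T.cone π =
      f81 Vr' Fd' n M (c82 o k w) h (fun l => c33 (a l)) (c33 b) o k c83 g m b e T.F T.cone π := by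
  let ch := cch M o g m a h k w b
  have e1 := fun x => gr_eq (ch := ch) (n := n) x
  have e2 := fun κ => pol_iff (o := o) (g := g) (m := m) (a := a) (h := h) (k := k) (w := w) (b := b)
    (M := M) T e κ
  unfold f81 f50
  refine f49_congr (S' := ch.base (Fin n)) (sol' := ch.sol (Fin n) T)
    (pol' := (ch.pol T e : Set (ch.P K))) (van' := Ch.van (ch := ch) T e)
    (obs' := Ch.obs (ch := ch) T e) (C' := Ch.crv (ch := ch)) ?_ ?_ ?_ ?_ ?_ ?_
    (fun x hx => hf _ hx.1.2.2.1) hv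
  · exact Set.ext (base_iff (ch := ch))
  · exact Set.ext fun x => and_congr (base_iff (ch := ch) x)
      (iff_of_eq (congrArg (fun G : Set ch.Pt => ∀ z ∈ G, ∃ y ∈ T.cone, ∀ j μ,
        z.2 (some j) (Ch.W.X (ch := ch) x j μ) = y j * val μ z.1) (e1 x)))
  · exact Set.ext e2
  · refine funext fun x => Set.ext fun κ => and_congr (e2 κ) ?_
    exact forall_congr' fun z => imp_congr (Set.ext_iff.1 (e1 x) z) (and_congr
      (forall_congr' fun _ => funext_iff.symm) (forall_congr' fun _ => funext_iff.symm))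
  · refine funext fun x => Set.ext fun κ => and_congr (e2 κ) ?_
    refine forall_congr' fun z => imp_congr (Set.ext_iff.1 (e1 x) z) ⟨fun ⟨y, k1, k2⟩ => ?_,
      fun ⟨y, k⟩ => ⟨fun j => y j, fun j => ⟨y j, rfl⟩, k⟩⟩
    choose y' hy using k1
    obtain rfl := funext hy
    exact ⟨y', k2⟩
  · exact funext fun x => congrArg (Prod.fst '' ·) (e1 x)

/-- The predicate `Vr` is the landed one on the charts with large parameters. -/
def Br (Vr : VT) [DecidableEq R] (T : Tgt R J K) : Prop :=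
  ∀ (g : ℤ) (n : ℕ) (d : R → ℤ), ∀ᶠ k in atTop, ∀ᶠ D in atTop, ∀ b,
    vch Vr (T.chart g n d k D) n T
      (fun q o => (T.F q).totalDegree * ∑ j, (T.chart g n d k D).b j o) b ↔
    ∃ v, (T.chart g n d k D).IsVir (Fin n) T
      (fun q o => (T.F q).totalDegree * ∑ j, (T.chart g n d k D).b j o) v ∧ fn v = b

/-- The predicate `Fd` is the landed one on curves. -/
def BrC (Fd : FT) : Prop :=
  ∀ (M : Option Unit → ℕ) o g m (C : Set (V M)), IsCurve o g m C →
    Fd (Option Unit → ℂ) (V M) (fun t c => t • c) C = c24 (fun (t : Option Unit → ℂ) c => t • c) C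

theorem f84_eq {Vr : VT} {Fd : FT} {N r : ℕ} (F : Fin r → MvPolynomial (Fin (N + 1)) ℂ)
    (h : Br Vr (ci F)) (hf : BrC Fd) {S : Set (Fin (N + 1) → ℂ)} (hS : S = (ci F).cone) {Y : Type}
    [TopologicalSpace Y] (π : S → Y) : f84 Vr Fd F S π = c84 F S π := by
  subst hS
  funext g β n l d z
  rw [← e84]
  refine propext (eventually_congr ((h g n fun _ => d).mono fun k h => eventually_congr
    (h.mono fun D h => ?_)))
  have h' := funext fun b => propext ((h b).trans vch_v47.symm)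
  rw [chart_ci] at h'
  exact iff_of_eq (congrFun₃ (f81_congr (ci F) _ (hf _ _ _ _) h') β l z)

theorem f102_eq {Vr : VT} {Fd : FT} {N r : ℕ} (F : Fin r → MvPolynomial (Fin (N + 1)) ℂ)
    (h : Br Vr (ci F)) (hf : BrC Fd) (hX : Fd _ _ c5 (c2 F) = c24 c5 (c2 F)) :
    f102 Vr Fd F = c102 F := by
  funext d n
  have : f84 Vr Fd F (c2 F) (Y := c6 F) (Quot.mk _) = c84 F (c2 F) (Y := c6 F) (Quot.mk _) :=
    f84_eq F h hf (Set.ext fun _ => and_congr_left' Function.ne_iff.symm) _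
  unfold f102 c102
  simp only [this, hX]

end Vale.Agent.P269L.Fr
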