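import Vale.Agent.P269L.Fr.Tx
import Vale.Agent.P269L.G.Main

/-!
# The cone text gives the virtual class on every good chart
-/

namespace Vale.Agent.P269L.Fr

theorem cn_tx : Cn vTx := fun _ _ _ _ _ _ _ _ _ _ _ _ _ _ _ _ _ _ _ _ _ _ _ h b => G.bridge h b

end Vale.Agent.P269L.Fr
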