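import Vale.Agent.P269.Pc.Br
import Vale.Agent.P269.Pub.T3

/-!
# The statement with the virtual class and the fundamental class as parameters
-/

noncomputable section

namespace Vale.Agent.P269L.Fr

open Set Function Topology Filter MvPolynomial Classical P269 P269.Pc

/-- Predicates with the signature of `c47`. -/
def VT : Type 1 := ∀ (A W P : Type) [NormedRing A] [NormedAlgebra ℂ A] [NormedAddCommGroup W]
  [NormedSpace ℂ W] [AddCommGroup P] [Module ℂ P] [TopologicalSpace P]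
  (act : A → W → W) (_ : A → P → P) (_ : Set W) (sol : Set W) (_ : Set P) (_ _ : W → Set P)
  (_ : W → P), c10 (c4 act sol) → Prop

/-- Predicates with the signature of `c24`. -/
def FT : Type 1 := ∀ (A W : Type) [NormedRing A] [NormedAlgebra ℂ A] [NormedAddCommGroup W]
  [NormedSpace ℂ W] (act : A → W → W) (S : Set W), c10 (c4 act S) → Prop

/-- The fundamental class of the landed statement. -/
def v24 : FT := fun _ _ _ _ _ _ act S => c24 act S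

/-- The predicate of the landed statement. -/
def v47 : VT := fun _ _ _ _ _ _ _ _ _ _ act ρ S sol pol van obs σ => c47 act ρ S sol pol van obs σ

variable (Vr : VT) (Fd : FT)

section

variable {A W P E : Type} [NormedRing A] [NormedAlgebra ℂ A] [NormedAddCommGroup W] [NormedSpace ℂ W]
  [NormedAddCommGroup E] [NormedSpace ℂ E] [AddCommGroup P] [Module ℂ P] [TopologicalSpace P]
  (act : A → W → W) (ρ : A → P → P) (S : Set W)

/-- `c49` with the predicates `Vr`, `Fd`. -/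
def f49 {A' Y : Type} [NormedRing A'] [NormedAlgebra ℂ A'] [TopologicalSpace Y] {n : ℕ}
    (sol : Set W) (pol : Set P) (van obs : W → Set P) (σ : W → P)
    (act' : A' → E → E) (C : W → Set E) (V : W → E → Y → Prop) (p : W → Fin n → E)
    (ρ' : Fin n → A → E → E) (dir : E → Set E)
    (β : c10 Y) (l : Fin n → ℕ × c9 Y) (z : ℂ) : Prop :=
  let o := c37 act sol
  ∃ (v : c10 (c4 act sol)) (ev : Fin n → c4 act sol → Y) (e : Fin n → c9 (c4 act sol)),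
    let a := c20 (c38 fun y => IsConnected (C (o y)) ∧ ∃ γ f, Fd A' E act' (C (o y)) γ ∧
        (∀ c, V (o y) (c37 act' _ c) (f c)) ∧ ∀ a, c14 a → β a = γ (c18 f a))
      (c22 (List.ofFn fun i => c20 (c22 (List.replicate (l i).1 fun u => -e i u))
        (c18 (ev i) (l i).2)))
    Vr A W P act ρ S sol pol van obs σ v ∧ (∀ i y, V (o y) (p (o y) i) (ev i y)) ∧
    (∀ i, c48 act (ρ' i) sol (fun x => {v | ∃ γ : ℂ → E, AnalyticAt ℂ γ 0 ∧
      (∀ᶠ t in 𝓝 0, γ t ∈ C x) ∧ γ 0 = p x i ∧ v = deriv γ 0}) (fun x => dir (p x i)) (e i)) ∧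
    CompactSpace (c4 act sol) ∧ c14 a ∧ z = v a

end

section

variable {ι σ J K E F Z T : Type} [NormedAddCommGroup E] [NormedSpace ℂ E] [NormedAddCommGroup F]
  [NormedSpace ℂ F] [Fintype ι] [Fintype σ] [Fintype J] {n : ℕ}

/-- `c50` with the predicates `Vr`, `Fd`. -/
def f50 {A₁ A₂ A' B₁ B₃ B₄ Y D G : Type} [NormedRing A₁] [NormedAlgebra ℂ A₁]
    [NormedRing A₂] [NormedAlgebra ℂ A₂] [NormedRing A'] [NormedAlgebra ℂ A'] [NormedAddCommGroup B₁]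
    [NormedSpace ℂ B₁] [NormedAddCommGroup B₃] [NormedSpace ℂ B₃] [NormedAddCommGroup B₄]
    [NormedSpace ℂ B₄] [TopologicalSpace Y]
    (t₁ : B₁ → A₂ → A₁ → B₁) (t₃ : B₃ → A₂ → A₁ → B₃) (t₄ : B₄ → A₂ → A₁ → B₄)
    (aE iE : A₁ → E → E) (aZ : A₂ → Z → Z) (aG : A₁ → G → G) (aD : A₁ → D → D)
    (act : A' → E → E) (dir : E → Set E) (Γ : B₁ → Set (E × Z))
    (base : B₁ → (Fin n → E) → B₃ → Prop) (S : Set (J → ℂ)) (π : S → Y)
    (v : G → E → ℂ) (x : B₄ → J → Z → G → ℂ) (dual : Set (G → ℂ))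
    (u : J → Set (Z → ℂ)) (gen : K → Set (E × Z → D → ℂ)) (η : D → G)
    (hm : K → D → E → (J → ℂ) → ℂ) :=
  let X := fun (w : B₁ × (Fin n → E) × B₃ × B₄) j (z : E × Z) => x w.2.2.2 j z.2
  let Sol := fun w z (y : J → ℂ) => ∀ j μ, X w j z μ = y j * v μ z.1
  let bs := {w : B₁ × (Fin n → E) × B₃ × B₄ | base w.1 w.2.1 w.2.2.1}
  let ρ := fun i (s : A₁ × A₂ × (Fin n → A')) c => act (s.2.2 i) (aE s.1 c)
  let pol : Set ((J → E × Z → G × G → ℂ) × (K → E × Z → D → ℂ)) :=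
    {κ | (∀ j, κ.1 j ∈ c36 {f | ∃ l ∈ dual, ∃ l' ∈ dual, ∃ μ, ∃ φ ∈ u j,
      f = fun z m => l m.1 * l' m.2 * v μ z.1 * φ z.2}) ∧ ∀ k, κ.2 k ∈ c36 (gen k)}
  f49 Vr Fd (P := (J → E × Z → G × G → ℂ) × (K → E × Z → D → ℂ))
    (fun s (w : B₁ × (Fin n → E) × B₃ × B₄) =>
      (t₁ w.1 s.2.1 s.1, fun i => ρ i s (w.2.1 i), t₃ w.2.2.1 s.2.1 s.1, t₄ w.2.2.2 s.2.1 s.1))
    (fun s κ => (fun j z m => κ.1 j (iE s.1 z.1, aZ s.2.1 z.2) (aG s.1 m.1, aG s.1 m.2),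
      fun k z ζ => κ.2 k (iE s.1 z.1, aZ s.2.1 z.2) (aD s.1 ζ)))
    bs {w | w ∈ bs ∧ ∀ z ∈ Γ w.1, ∃ y ∈ S, Sol w z y} pol
    (fun w => {κ | κ ∈ pol ∧ ∀ z ∈ Γ w.1, (∀ j m, κ.1 j z m = 0) ∧ ∀ k ζ, κ.2 k z ζ = 0})
    (fun w => {κ | κ ∈ pol ∧ ∀ z ∈ Γ w.1, ∃ y : J → G → ℂ, (∀ j, y j ∈ dual) ∧
      (∀ j m, κ.1 j z m = v m.2 z.1 * y j m.1 - v m.1 z.1 * y j m.2) ∧ ∀ k ζ, κ.2 k z ζ =
        deriv (fun ε : ℂ => hm k ζ z.1 fun j => X w j z (η ζ) + ε * y j (η ζ)) 0})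
    (fun w => (fun j z m => v m.2 z.1 * X w j z m.1 - v m.1 z.1 * X w j z m.2,
      fun k z ζ => hm k ζ z.1 fun j => X w j z (η ζ)))
    act (fun w => Prod.fst '' Γ w.1)
    (fun w c y => ∃ z, (c, z) ∈ Γ w.1 ∧ ∃ y' : S, Sol w (c, z) y' ∧ y = π y') (fun w => w.2.1) ρ dir

variable (n) (M : ι → ℕ) (τ : σ → ι) in
/-- `c81` with the predicates `Vr`, `Fd`. -/
def f81 {σ₁ : Option J → Type} {σ₂ Y : Type} [∀ l, Fintype (σ₁ l)] [Fintype σ₂] [TopologicalSpace Y]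
    (h : Option J → ℕ) (τ₁ : ∀ l, σ₁ l → ι) (τ₂ : σ₂ → ι) (o : ι) (k : ℕ)
    (w : c25 M τ → (∀ i, c26 (M i)) → (∀ i, c26 (M i)) → ℂ) (g : ℤ) (m : ι → ℤ) (b : ι → ℕ)
    (e : K → ι → ℕ) (F : K → MvPolynomial J ℂ) (S : Set (J → ℂ)) (π : S → Y) :=
  let u := fun (z : ∀ l, c30 (h l)) l => c32 (z l)
  let U := fun j => range fun y z => u z (some j) y
  let nz := fun c : ∀ i, c26 (M i) => ∀ i, ∃ s, c i s ≠ 0
  let act := fun (t : ι → ℂ) (c : ∀ i, c26 (M i)) i s => t i * c i s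
  let pol := fun a => range (c25.c35 (M := M) (τ := c33 a))
  let d := fun q (α : J →₀ ℕ) i => e q i - ∑ j, α j * b i
  f50 Vr Fd (n := n) (fun (Q : ∀ l, c55 M (τ₁ l) (h l)) (s : ∀ l, c51 (h l)) s' l => c70 (Q l) (s l) s')
    (fun (Ξ : c55 M τ (h none)) s => c70 Ξ (s none))
    (fun (x : ∀ j, c55 M τ₂ (h (some j))) s s' j => c70 (x j) (s (some j)) s')
    (fun s c i => (s i).c31 (c i)) (fun s c i => (s i).c71 (c i)) (fun s z l => (z l).c65 (s l))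
    (fun s => (c69 s).c31) (fun s (ζ : ∀ i, c30 (M i)) i => (ζ i).c65 (s i))
    act (fun c => range fun i => update (fun _ _ => 0) i (c i))
    (fun Q => c72 nz (fun _ => c25.c35) u fun l => c73 (Q l))
    (fun Q p Ξ => c77 (fun c => c o) nz act pol g m (fun _ => c25.c35) u (fun l => c73 (Q l)) k w p
      (c73 Ξ))
    S π c25.c35 (fun x j z μ => u z (some j) (c73 (x j) μ)) (range c27.c31) U
    (fun q => c79 (F q).support
      (c78 (fun i => range fun y (ζ : ∀ i, c30 (M i)) => c32 (ζ i) y) (e q)) U fun α => pol (d q α))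
    (fun ζ => (ContinuousMultilinearMap.mkPiAlgebra ℂ _ ℂ).compContinuousLinearMap fun s => ζ (τ₂ s))
    fun q ζ c y => ∑ α ∈ (F q).support,
      coeff α (F q) * (∏ j, y j ^ α j) * ∏ i, c32 (ζ i) (c i) ^ d q α i

/-- `c84` with the predicates `Vr`, `Fd`. -/
def f84 {Y : Type} [TopologicalSpace Y] (F : K → MvPolynomial J ℂ) (S : Set (J → ℂ)) (π : S → Y)
    (g : ℤ) (β : c10 Y) (n : ℕ) (l : Fin n → ℕ × c9 Y) (d : ℤ) (z : ℂ) : Prop :=
  ∀ᶠ k : ℕ in atTop, ∀ᶠ D : ℕ in atTop,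
    let m : Option Unit → ℤ := fun o => k * (2 * g - 2 + n + 3 * d) + o.elim 0 fun _ => d
    let a : Option J → ℕ := fun l => l.elim D fun _ => 1
    let b : Option Unit → ℕ := fun o => o.elim 2 fun _ => 0
    let b' : Option Unit → ℕ := fun o => o.elim (D - (5 * k + 1)) fun _ => D + 3 * k
    f81 Vr Fd n (fun o => (m o + 1 - g).toNat) (c82 none k b')
      (fun l => (∑ o, a l * m o + 1 - g).toNat) (fun l => c33 fun _ => a l) (c33 b) none k c83 g m b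
      (fun q o => (F q).totalDegree * ∑ _j : J, b o) F S π β l z

end

variable {J K : Type} [Fintype J] (F : K → MvPolynomial J ℂ)

/-- `c102` with the predicates `Vr`, `Fd`. -/
def f102 (d : K → ℕ) (n : ℕ) : Prop :=
  let S := c2 F
  let T := fun x : J → ℂ => {v | ∀ k, ∑ j, v j * eval x (pderiv j (F k)) = 0}
  let Y := c6 F
  let π : S → Y := Quot.mk _
  let X : c10 Y → Prop := Fd _ _ c5 S
  let G := f84 Vr Fd F S π
  c91 (c93 S T π) X (c100 c5 S T (fun t => t ()) n) G n ∧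
  (n = 1 → (∀ k, d k = 1) → ∀ β, X β → ∀ m (a : Fin m → c9 Y), (∀ i, c14 (a i) ∧ c16 2 (a i)) →
    G 0 β m (fun i => (0, a i)) 1 (∏ i, β (a i))) ∧
  (n = 2 → Fintype.card J = 4 → (∀ k, d k = 3) → ∀ z : c10 Y → ℂ,
    (∀ β, c15 β → G 0 β 0 Fin.elim0 1 (z β)) → ∑ᶠ β ∈ {β | c15 β}, z β = 27)

theorem e49 : @f49 v47 v24 = @c49 := (rfl)

theorem e50 : @f50 v47 v24 = @c50 := by
  unfold f50 c50
  rw [e49]

theorem e81 : @f81 v47 v24 = @c81 := by
  unfold f81 c81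
  rw [e50]

theorem e84 : @f84 v47 v24 = @c84 := by
  unfold f84 c84
  rw [e81]

theorem e102 : @f102 v47 v24 = @c102 := by
  unfold f102 c102
  rw [e84]
  rfl

end Vale.Agent.P269L.Fr
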