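import Vale.Agent.P269L.Fr.Br
import Vale.Agent.P269.Pc.Fin

/-!
# The theorem with the two predicates as parameters
-/

namespace Vale.Agent.P269L.Fr

open MvPolynomial P269.Pc

theorem fin {Vr : VT} {Fd : FT} (hV : Cn Vr) (hf : Fn Fd) (N r : ℕ) (d : Fin r → ℕ)
    (F : Fin r → MvPolynomial (Fin (N + 1)) ℂ) (hF : ∀ k, (F k).IsHomogeneous (d k))
    (hs : ∀ x ∈ c2 F, LinearIndependent ℂ fun k j => eval x (pderiv j (F k)))
    (hc : ConnectedSpace (c6 F)) : f102 Vr Fd F d (N - r) :=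
  (f102_ci hV hf hF hs hc.toNonempty).symm ▸ P269.Pc.fin N r d F hF hs hc

end Vale.Agent.P269L.Fr
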