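import Vale.Agent.P269L.Fr.Br
import Vale.Agent.P269L.U.Tx

/-!
# The predicates of the cone text as parameters
-/

namespace Vale.Agent.P269L.Fr

/-- The virtual class `0^! [C]`. -/
def vTx : VT := fun _ _ _ _ _ _ _ _ _ _ act ρ S sol pol van obs σ =>
  Tx.IsVir act ρ S sol pol van obs σ

/-- The fundamental class as a cycle with multiplicity one. -/
def fTx : FT := fun _ _ _ _ _ _ act S => Tx.IsFund act S

theorem fn_tx : Fn fTx := fun _ _ _ _ _ _ _ _ _ _ h b => U.isFund_iff h b

end Vale.Agent.P269L.Fr
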